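import Vale.Agent.P127.Stk.LibFloors
import Vale.Agent.P127.Stk.BaseA

/-!
# P127 / H205 : counting with a variable number of values
-/

set_option autoImplicit false

namespace Vale.Agent.P127.H205

open Finset Vale.Agent.P127 Vale.Agent.P127.Stk

section cnt

variable {Ω : Type} [Fintype Ω] {S T : Type*} (P : Law Ω)

/-- counting bound with a variable number of values -/
theorem hc_le_exlog (X : Ω → S) (Y : Ω → T) (N : T → ℕ)
    (h : ∀ ω, 0 < P.w ω → ∃ F : Finset S, F.card ≤ N (Y ω) ∧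
      ∀ ω', 0 < P.w ω' → Y ω' = Y ω → X ω' ∈ F) :
    hc P X Y ≤ P.ex (fun ω => Real.log (N (Y ω))) := by
  classical
  have h' : ∀ y : T, ∃ F : Finset S, F.card ≤ N y ∧
      ∀ ω', 0 < P.w ω' → Y ω' = y → X ω' ∈ F := by
    intro y
    by_cases hy : ∃ ω, 0 < P.w ω ∧ Y ω = y
    · obtain ⟨ω, hω, rfl⟩ := hy
      exact h ω hω
    · refine ⟨∅, by simp, fun ω' h1 h2 => ?_⟩
      exact absurd ⟨ω', h1, h2⟩ hy
  choose F hF1 hF2 using h'
  have hN : ∀ ω, 0 < P.w ω → (0 : ℝ) < N (Y ω) := by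
    intro ω hω
    have := hF2 (Y ω) ω hω rfl
    exact_mod_cast lt_of_lt_of_le (Finset.card_pos.2 ⟨_, this⟩) (hF1 _)
  have hg := P.gibbs_cond X Y (fun x y => if x ∈ F y then 1 / (N y : ℝ) else 0)
    (fun x y => by split_ifs <;> positivity) ?_ (fun ω hω => by
      rw [if_pos (hF2 _ ω hω rfl)]
      have := hN ω hω
      positivity)
  · have h2 : P.ex (fun ω => - Real.log ((fun x y => if x ∈ F y then 1 / (N y : ℝ) else 0)
        (X ω) (Y ω))) = P.ex (fun ω => Real.log (N (Y ω))) := by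
      refine P.ex_congr fun ω hω => ?_
      simp only
      rw [if_pos (hF2 _ ω hω rfl), one_div, Real.log_inv, neg_neg]
    rw [h2] at hg
    exact hg
  · intro y G
    rw [← Finset.sum_filter, Finset.sum_const, nsmul_eq_mul, mul_one_div]
    refine div_le_one_of_le₀ ?_ (Nat.cast_nonneg _)
    have : (G.filter (fun x => x ∈ F y)).card ≤ (F y).card :=
      Finset.card_le_card fun x hx => (Finset.mem_filter.1 hx).2
    exact_mod_cast this.trans (hF1 y)

/-- if the diameter of the values of `v` given `Y` is at most `N 2^{-s}`, then the first `s` digits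
of `v` have at most `2 N + 3` values -/
theorem hc_fl1_diam_var (s : ℕ) (v : Ω → ℝ) (Y : Ω → T) (N : T → ℕ)
    (h : ∀ ω ω', 0 < P.w ω → 0 < P.w ω' → Y ω = Y ω' →
      |v ω - v ω'| ≤ N (Y ω) * (1 / 2 : ℝ) ^ s) :
    hc P (fun ω => fl1 s (v ω)) Y ≤ P.ex (fun ω => Real.log (2 * N (Y ω) + 3)) := by
  classical
  have h1 := hc_le_exlog P (fun ω => fl1 s (v ω)) Y (fun y => 2 * N y + 3) ?_
  · push_cast at h1
    exact h1
  · intro ω hω
    refine ⟨Finset.Icc (fl1 s (v ω) - (N (Y ω) + 1)) (fl1 s (v ω) + (N (Y ω) + 1)), ?_, ?_⟩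
    · rw [Int.card_Icc]
      omega
    · intro ω' hω' hY
      have h2 := fl_sub_le (ι := Unit) (s := s) (v := fun _ => v ω') (w := fun _ => v ω)
        (N := N (Y ω)) (fun _ => by
          have := h ω' ω hω' hω hY
          rw [hY] at this
          exact this) ()
      have h3 : |fl1 s (v ω') - fl1 s (v ω)| ≤ (N (Y ω) : ℤ) + 1 := h2
      rw [abs_le] at h3
      rw [Finset.mem_Icc]
      omega

end cnt

end Vale.Agent.P127.H205
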