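import Vale.Agent.P127.H205.CntA

/-!
# P127 / H205 : two slabs through a point, geometry
-/

set_option autoImplicit false

namespace Vale.Agent.P127.H205

open Finset Vale.Agent.P127 Vale.Agent.P127.Stk

section alg

variable {K δ : ℝ}

/-- one slab: difference of two points -/
theorem slab_diff (hK : 1 ≤ K) (hδ : 0 ≤ δ) {e0 e1 f0 f1 a a' b b' p0 p1 q0 q1 t t' : ℝ}
    (hi : |e0 * p0 + e1 * p1 - a - t * b| ≤ K * δ) (hi' : |f0 * q0 + f1 * q1 - a' - t' * b'| ≤ K * δ)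
    (h0 : |e0 - f0| ≤ K * δ) (h1 : |e1 - f1| ≤ K * δ) (ha : |a - a'| ≤ K * δ)
    (hb : |b - b'| ≤ K * δ) (hq0 : |q0| ≤ K) (hq1 : |q1| ≤ K) (ht' : |t'| ≤ 1) :
    |(e0 * (p0 - q0) + e1 * (p1 - q1)) - b * (t - t')| ≤ 6 * K ^ 2 * δ := by
  have e : (e0 * (p0 - q0) + e1 * (p1 - q1)) - b * (t - t') =
      (e0 * p0 + e1 * p1 - a - t * b) - (f0 * q0 + f1 * q1 - a' - t' * b') + (a - a') +
      t' * (b - b') - (e0 - f0) * q0 - (e1 - f1) * q1 := by ring
  rw [e]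
  have g1 : |t' * (b - b')| ≤ K * δ := by
    rw [abs_mul]
    calc |t'| * |b - b'| ≤ 1 * (K * δ) := mul_le_mul ht' hb (abs_nonneg _) (by norm_num)
      _ = _ := one_mul _
  have g2 : |(e0 - f0) * q0| ≤ K * δ * K := by
    rw [abs_mul]
    exact mul_le_mul h0 hq0 (abs_nonneg _) (by positivity)
  have g3 : |(e1 - f1) * q1| ≤ K * δ * K := by
    rw [abs_mul]
    exact mul_le_mul h1 hq1 (abs_nonneg _) (by positivity)
  have hKK : K * δ ≤ K * δ * K := le_mul_of_one_le_right (by positivity) hK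
  rw [abs_le] at *
  constructor <;> nlinarith

/-- `e` a unit vector, `v` given by its products with `e` and `d` -/
theorem solve2 {e0 e1 d0 d1 v0 v1 : ℝ} :
    v0 * (e0 * d1 - e1 * d0) = (e0 * v0 + e1 * v1) * d1 - (d0 * v0 + d1 * v1) * e1 ∧
    v1 * (e0 * d1 - e1 * d0) = -(e0 * v0 + e1 * v1) * d0 + (d0 * v0 + d1 * v1) * e0 := by
  constructor <;> ring

/-- `d = e' - s e` is transversal to `e` -/
theorem trans_cross {e0 e1 f0 f1 s : ℝ} (he : e0 ^ 2 + e1 ^ 2 = 1) (hf : f0 ^ 2 + f1 ^ 2 = 1)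
    (hs : s ^ 2 = 1) (hpos : 0 ≤ s * (e0 * f0 + e1 * f1)) :
    |f0 - s * e0| + |f1 - s * e1| ≤
      2 * |e0 * (f1 - s * e1) - e1 * (f0 - s * e0)| ∧ |f0 - s * e0| + |f1 - s * e1| ≤ 2 := by
  set d0 := f0 - s * e0 with hd0
  set d1 := f1 - s * e1 with hd1
  set c := s * (e0 * f0 + e1 * f1) with hc
  have h1 : d0 ^ 2 + d1 ^ 2 = 2 - 2 * c := by
    rw [hd0, hd1, hc]
    nlinarith
  have h2 : (e0 * d1 - e1 * d0) ^ 2 = 1 - c ^ 2 := by
    have e : (e0 * d1 - e1 * d0) ^ 2 =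
        (e0 ^ 2 + e1 ^ 2) * (f0 ^ 2 + f1 ^ 2) - (e0 * f0 + e1 * f1) ^ 2 := by
      rw [hd0, hd1]
      ring
    rw [e, he, hf, hc, mul_pow, hs]
    ring
  have hc1 : c ≤ 1 := by nlinarith [sq_nonneg d0, sq_nonneg d1]
  have h3 : (|d0| + |d1|) ^ 2 ≤ 2 * (d0 ^ 2 + d1 ^ 2) := by
    have := sq_nonneg (|d0| - |d1|)
    nlinarith [sq_abs d0, sq_abs d1]
  constructor
  · refine abs_le_of_sq_le_sq' ?_ (by positivity) |>.2
    rw [mul_pow, sq_abs, h2]
    nlinarith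
  · refine abs_le_of_sq_le_sq' ?_ (by norm_num) |>.2
    nlinarith

/-- case A : the position is determined by the time up to `2^ρ δ` -/
theorem caseA (hK : 1 ≤ K) (hδ : 0 ≤ δ) {e0 e1 f0 f1 s b b' v0 v1 τ R : ℝ}
    (he : e0 ^ 2 + e1 ^ 2 = 1) (hf : f0 ^ 2 + f1 ^ 2 = 1)
    (hs : s ^ 2 = 1) (hpos : 0 ≤ s * (e0 * f0 + e1 * f1))
    (hb : |b| ≤ K) (hb' : |b'| ≤ K)
    (h1 : |(e0 * v0 + e1 * v1) - b * τ| ≤ 6 * K ^ 2 * δ)
    (h2 : |(f0 * v0 + f1 * v1) - b' * τ| ≤ 6 * K ^ 2 * δ) (hτ : |τ| ≤ δ)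
    (hA : |b' - s * b| ≤ 4 * K * (|f0 - s * e0| + |f1 - s * e1|)) (hR : 1 ≤ R)
    (hlow : 1 ≤ K * R * (|f0 - s * e0| + |f1 - s * e1| + |b' - s * b|)) :
    |v0| ≤ 154 * K ^ 4 * R * δ ∧ |v1| ≤ 154 * K ^ 4 * R * δ := by
  obtain ⟨t1, t2⟩ := trans_cross he hf hs hpos
  set d0 := f0 - s * e0 with hd0
  set d1 := f1 - s * e1 with hd1
  set D := |d0| + |d1| with hD
  set X := e0 * d1 - e1 * d0 with hX
  set α := e0 * v0 + e1 * v1 with hα
  set β := d0 * v0 + d1 * v1 with hβ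
  have hs1 : |s| = 1 := by
    have : |s| ^ 2 = 1 := by rw [sq_abs, hs]
    nlinarith [abs_nonneg s]
  have hKK : K ≤ K ^ 2 := by nlinarith
  have hKδ : K * δ ≤ K ^ 2 * δ := mul_le_mul_of_nonneg_right hKK hδ
  have bα : |α| ≤ 7 * K ^ 2 * δ := by
    have g : |b * τ| ≤ K * δ := by
      rw [abs_mul]
      exact mul_le_mul hb hτ (abs_nonneg _) (by positivity)
    have := abs_add_le (α - b * τ) (b * τ)
    rw [sub_add_cancel] at this
    linarith
  have bα' : |f0 * v0 + f1 * v1| ≤ 7 * K ^ 2 * δ := by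
    have g : |b' * τ| ≤ K * δ := by
      rw [abs_mul]
      exact mul_le_mul hb' hτ (abs_nonneg _) (by positivity)
    have := abs_add_le ((f0 * v0 + f1 * v1) - b' * τ) (b' * τ)
    rw [sub_add_cancel] at this
    linarith
  have bβ : |β| ≤ 14 * K ^ 2 * δ := by
    have e : β = (f0 * v0 + f1 * v1) - s * α := by
      rw [hβ, hα, hd0, hd1]
      ring
    rw [e]
    have g := abs_sub (f0 * v0 + f1 * v1) (s * α)
    rw [abs_mul, hs1, one_mul] at g
    linarith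
  have hD0 : 0 < D := by
    rcases (by positivity : 0 ≤ D).eq_or_lt with h | h
    · exfalso
      rw [← h] at hA hlow
      have h0 : |b' - s * b| ≤ 0 := by linarith
      have : K * R * (0 + |b' - s * b|) ≤ 0 :=
        mul_nonpos_of_nonneg_of_nonpos (by positivity) (by linarith)
      linarith
    · exact h
  have hlow' : 1 ≤ 5 * K ^ 2 * R * D := by
    have h0 : D ≤ K * D := le_mul_of_one_le_left hD0.le hK
    have : D + |b' - s * b| ≤ 5 * K * D := by linarith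
    have g : K * R * (D + |b' - s * b|) ≤ K * R * (5 * K * D) :=
      mul_le_mul_of_nonneg_left this (by positivity)
    have g' : K * R * (5 * K * D) = 5 * K ^ 2 * R * D := by ring
    linarith
  have he0 : |e0| ≤ 1 := abs_le_one_iff_mul_self_le_one.2 (by nlinarith [sq_nonneg e1])
  have he1 : |e1| ≤ 1 := abs_le_one_iff_mul_self_le_one.2 (by nlinarith [sq_nonneg e0])
  have key : ∀ v : ℝ, |v * X| ≤ |α| * D + |β| → |v| ≤ 154 * K ^ 4 * R * δ := by
    intro v hv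
    rw [abs_mul] at hv
    have g0 : |v| * D ≤ |v| * (2 * |X|) := mul_le_mul_of_nonneg_left t1 (abs_nonneg v)
    have g1 : |v| * D ≤ 2 * (|α| * D + |β|) := by linarith
    have g2 : |v| * D ≤ (154 * K ^ 4 * R * δ) * D := by
      have i1 : |β| ≤ 14 * K ^ 2 * δ * (5 * K ^ 2 * R * D) := by
        calc |β| ≤ 14 * K ^ 2 * δ := bβ
          _ ≤ 14 * K ^ 2 * δ * (5 * K ^ 2 * R * D) :=
            le_mul_of_one_le_right (by positivity) hlow'
      have i1' : 14 * K ^ 2 * δ * (5 * K ^ 2 * R * D) = 70 * (K ^ 4 * R * δ * D) := by ring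
      have i2 : |α| * D ≤ 7 * (K ^ 4 * R) * δ * D := by
        refine mul_le_mul_of_nonneg_right (bα.trans ?_) hD0.le
        have : K ^ 2 ≤ K ^ 4 * R := by
          have j1 : K ^ 2 ≤ K ^ 4 := pow_le_pow_right₀ hK (by norm_num)
          have j2 : K ^ 4 ≤ K ^ 4 * R := le_mul_of_one_le_right (by positivity) hR
          linarith
        have j3 : 7 * K ^ 2 ≤ 7 * (K ^ 4 * R) := by linarith
        exact mul_le_mul_of_nonneg_right j3 hδ
      have i2' : 7 * (K ^ 4 * R) * δ * D = 7 * (K ^ 4 * R * δ * D) := by ring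
      have i3 : 154 * K ^ 4 * R * δ * D = 154 * (K ^ 4 * R * δ * D) := by ring
      rw [i3]
      rw [i1'] at i1
      rw [i2'] at i2
      linarith
    exact le_of_mul_le_mul_right g2 hD0
  obtain ⟨s1, s2⟩ := @solve2 e0 e1 d0 d1 v0 v1
  constructor
  · refine key v0 ?_
    rw [s1]
    have g := abs_sub (α * d1) (β * e1)
    rw [abs_mul, abs_mul] at g
    have : |β| * |e1| ≤ |β| := mul_le_of_le_one_right (abs_nonneg _) he1
    have : |α| * |d1| ≤ |α| * D := mul_le_mul_of_nonneg_left (by rw [hD]; linarith [abs_nonneg d0])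
      (abs_nonneg _)
    linarith
  · refine key v1 ?_
    rw [s2]
    have g := abs_add_le (-α * d0) (β * e0)
    rw [abs_mul, abs_mul, abs_neg] at g
    have : |β| * |e0| ≤ |β| := mul_le_of_le_one_right (abs_nonneg _) he0
    have : |α| * |d0| ≤ |α| * D := mul_le_mul_of_nonneg_left (by rw [hD]; linarith [abs_nonneg d1])
      (abs_nonneg _)
    linarith

/-- case B : the time is determined by the transversal position up to `2^ρ δ` -/
theorem caseB (hK : 1 ≤ K) (hδ : 0 ≤ δ) {e0 e1 f0 f1 s b b' v0 v1 τ R : ℝ}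
    (he : e0 ^ 2 + e1 ^ 2 = 1) (hf : f0 ^ 2 + f1 ^ 2 = 1)
    (hs : s ^ 2 = 1) (hpos : 0 ≤ s * (e0 * f0 + e1 * f1))
    (hb : |b| ≤ K) (hb' : |b'| ≤ K)
    (h1 : |(e0 * v0 + e1 * v1) - b * τ| ≤ 6 * K ^ 2 * δ)
    (h2 : |(f0 * v0 + f1 * v1) - b' * τ| ≤ 6 * K ^ 2 * δ)
    (h3 : |e0 * v1 - e1 * v0| ≤ 5 * K ^ 2 * δ)
    (hB : 4 * K * (|f0 - s * e0| + |f1 - s * e1|) ≤ |b' - s * b|) (hR : 1 ≤ R)
    (hlow : 1 ≤ K * R * (|f0 - s * e0| + |f1 - s * e1| + |b' - s * b|)) :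
    |τ| ≤ 96 * K ^ 3 * R * δ := by
  obtain ⟨t1, t2⟩ := trans_cross he hf hs hpos
  set d0 := f0 - s * e0 with hd0
  set d1 := f1 - s * e1 with hd1
  set D := |d0| + |d1| with hD
  set g := b' - s * b with hg
  set α := e0 * v0 + e1 * v1 with hα
  set γ := e0 * v1 - e1 * v0 with hγ
  have hs1 : |s| = 1 := by
    have : |s| ^ 2 = 1 := by rw [sq_abs, hs]
    nlinarith [abs_nonneg s]
  have he0 : |e0| ≤ 1 := abs_le_one_iff_mul_self_le_one.2 (by nlinarith [sq_nonneg e1])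
  have he1 : |e1| ≤ 1 := abs_le_one_iff_mul_self_le_one.2 (by nlinarith [sq_nonneg e0])
  have hD0 : 0 ≤ D := by positivity
  -- the exact identity
  have id1 : g * τ = α * (e0 * d0 + e1 * d1) + γ * (e0 * d1 - e1 * d0) -
      ((f0 * v0 + f1 * v1) - b' * τ) + s * (α - b * τ) := by
    have e : α * (e0 * d0 + e1 * d1) + γ * (e0 * d1 - e1 * d0) =
        (e0 ^ 2 + e1 ^ 2) * (d0 * v0 + d1 * v1) := by
      rw [hα, hγ]
      ring
    rw [e, he, one_mul, hg, hd0, hd1, hα]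
    ring
  have b1 : |e0 * d0 + e1 * d1| ≤ D := by
    have := abs_add_le (e0 * d0) (e1 * d1)
    rw [abs_mul, abs_mul] at this
    have i1 : |e0| * |d0| ≤ |d0| := mul_le_of_le_one_left (abs_nonneg _) he0
    have i2 : |e1| * |d1| ≤ |d1| := mul_le_of_le_one_left (abs_nonneg _) he1
    rw [hD]
    linarith
  have b2 : |e0 * d1 - e1 * d0| ≤ D := by
    have := abs_sub (e0 * d1) (e1 * d0)
    rw [abs_mul, abs_mul] at this
    have i1 : |e0| * |d1| ≤ |d1| := mul_le_of_le_one_left (abs_nonneg _) he0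
    have i2 : |e1| * |d0| ≤ |d0| := mul_le_of_le_one_left (abs_nonneg _) he1
    rw [hD]
    linarith
  have bα : |α| ≤ K * |τ| + 6 * K ^ 2 * δ := by
    have j1 : |b * τ| ≤ K * |τ| := by
      rw [abs_mul]
      exact mul_le_mul_of_nonneg_right hb (abs_nonneg _)
    have := abs_add_le (α - b * τ) (b * τ)
    rw [sub_add_cancel] at this
    linarith
  have b3 : |g| * |τ| ≤ (K * |τ| + 6 * K ^ 2 * δ) * D + 5 * K ^ 2 * δ * D + 12 * K ^ 2 * δ := by
    rw [← abs_mul, id1]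
    have i1 := abs_add_le (α * (e0 * d0 + e1 * d1) + γ * (e0 * d1 - e1 * d0) -
      ((f0 * v0 + f1 * v1) - b' * τ)) (s * (α - b * τ))
    have i2 := abs_sub (α * (e0 * d0 + e1 * d1) + γ * (e0 * d1 - e1 * d0))
      ((f0 * v0 + f1 * v1) - b' * τ)
    have i3 := abs_add_le (α * (e0 * d0 + e1 * d1)) (γ * (e0 * d1 - e1 * d0))
    rw [abs_mul, abs_mul γ] at i3
    rw [abs_mul s, hs1, one_mul] at i1
    have i4 : |α| * |e0 * d0 + e1 * d1| ≤ (K * |τ| + 6 * K ^ 2 * δ) * D :=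
      mul_le_mul bα b1 (abs_nonneg _) (by positivity)
    have i5 : |γ| * |e0 * d1 - e1 * d0| ≤ 5 * K ^ 2 * δ * D :=
      mul_le_mul h3 b2 (abs_nonneg _) (by positivity)
    linarith
  have b4 : 4 * K * D * |τ| ≤ |g| * |τ| := mul_le_mul_of_nonneg_right hB (abs_nonneg τ)
  have b5 : |g| * |τ| ≤ 48 * (K ^ 2 * δ) := by
    have i0 : 0 ≤ K ^ 2 * δ := by positivity
    have i1 : K ^ 2 * δ * D ≤ K ^ 2 * δ * 2 := mul_le_mul_of_nonneg_left t2 i0
    have i2 : (K * |τ| + 6 * K ^ 2 * δ) * D + 5 * K ^ 2 * δ * D + 12 * K ^ 2 * δ =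
      (4 * K * D * |τ|) / 4 + 11 * (K ^ 2 * δ * D) + 12 * (K ^ 2 * δ) := by ring
    rw [i2] at b3
    have i3 : 0 ≤ |g| * |τ| := by positivity
    linarith
  have hlow' : 1 ≤ 2 * K * R * |g| := by
    have i0 : D ≤ K * D := le_mul_of_one_le_left hD0 hK
    have i1 : D ≤ |g| := by linarith
    have i2 : K * R * (D + |g|) ≤ K * R * (2 * |g|) :=
      mul_le_mul_of_nonneg_left (by linarith [abs_nonneg g]) (by positivity)
    have i3 : K * R * (2 * |g|) = 2 * K * R * |g| := by ring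
    linarith
  calc |τ| ≤ 2 * K * R * |g| * |τ| := le_mul_of_one_le_left (abs_nonneg _) hlow'
    _ = 2 * K * R * (|g| * |τ|) := by ring
    _ ≤ 2 * K * R * (48 * (K ^ 2 * δ)) := mul_le_mul_of_nonneg_left b5 (by positivity)
    _ = 96 * K ^ 3 * R * δ := by ring

/-- the components along `e` and `e^⊥` determine the vector -/
theorem comp_le {e0 e1 v0 v1 A B : ℝ} (he : e0 ^ 2 + e1 ^ 2 = 1)
    (h1 : |e0 * v0 + e1 * v1| ≤ A) (h2 : |e0 * v1 - e1 * v0| ≤ B) :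
    |v0| ≤ A + B ∧ |v1| ≤ A + B := by
  have he0 : |e0| ≤ 1 := abs_le_one_iff_mul_self_le_one.2 (by nlinarith [sq_nonneg e1])
  have he1 : |e1| ≤ 1 := abs_le_one_iff_mul_self_le_one.2 (by nlinarith [sq_nonneg e0])
  have e2 : v0 = (e0 * v0 + e1 * v1) * e0 - (e0 * v1 - e1 * v0) * e1 := by
    have : (e0 * v0 + e1 * v1) * e0 - (e0 * v1 - e1 * v0) * e1 = (e0 ^ 2 + e1 ^ 2) * v0 := by ring
    rw [this, he, one_mul]
  have e3 : v1 = (e0 * v0 + e1 * v1) * e1 + (e0 * v1 - e1 * v0) * e0 := by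
    have : (e0 * v0 + e1 * v1) * e1 + (e0 * v1 - e1 * v0) * e0 = (e0 ^ 2 + e1 ^ 2) * v1 := by ring
    rw [this, he, one_mul]
  constructor
  · rw [e2]
    have g := abs_sub ((e0 * v0 + e1 * v1) * e0) ((e0 * v1 - e1 * v0) * e1)
    rw [abs_mul, abs_mul] at g
    have g1 : |e0 * v0 + e1 * v1| * |e0| ≤ |e0 * v0 + e1 * v1| :=
      mul_le_of_le_one_right (abs_nonneg _) he0
    have g2 : |e0 * v1 - e1 * v0| * |e1| ≤ |e0 * v1 - e1 * v0| :=
      mul_le_of_le_one_right (abs_nonneg _) he1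
    linarith
  · rw [e3]
    have g := abs_add_le ((e0 * v0 + e1 * v1) * e1) ((e0 * v1 - e1 * v0) * e0)
    rw [abs_mul, abs_mul] at g
    have g1 : |e0 * v0 + e1 * v1| * |e1| ≤ |e0 * v0 + e1 * v1| :=
      mul_le_of_le_one_right (abs_nonneg _) he1
    have g2 : |e0 * v1 - e1 * v0| * |e0| ≤ |e0 * v1 - e1 * v0| :=
      mul_le_of_le_one_right (abs_nonneg _) he0
    linarith

end alg

end Vale.Agent.P127.H205
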